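import Mathlib

/-!
Runs of integers not coprime to `n`, when the reciprocal sum of the primes of `n` outside a modulus `Q` is below `1`.
Restrict to the progression `1 mod Q` and apply the union bound.
-/

namespace Vale.Agent.Results.P013.A_reciprocal

open Finset

/-- Multiples of `p` among `M` consecutive terms of a progression with difference coprime to `p`. -/
theorem count_multiples (p Q : ℕ) (hp : 0 < p) (hQ : Nat.Coprime p Q) (b : ℤ) (M : ℕ) :
    (((range M).filter (fun t : ℕ => (p : ℤ) ∣ b + Q * t)).card : ℝ) ≤ (M : ℝ) / p + 1 := by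
  classical
  set A := (range M).filter (fun t : ℕ => (p : ℤ) ∣ b + Q * t) with hA
  by_cases hne : A.Nonempty
  · obtain ⟨t₀, ht₀⟩ := hne
    have hsub : A ⊆ (range M).filter (fun t : ℕ => t ≡ t₀ [MOD p]) := by
      intro t ht
      rw [hA, mem_filter] at ht ht₀
      rw [mem_filter]
      refine ⟨ht.1, ?_⟩
      have h1 : (p : ℤ) ∣ (Q : ℤ) * ((t : ℤ) - t₀) := by
        have := dvd_sub ht.2 ht₀.2
        have e : b + (Q : ℤ) * t - (b + Q * t₀) = (Q : ℤ) * ((t : ℤ) - t₀) := by ring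
        rwa [e] at this
      have hc : IsCoprime (p : ℤ) (Q : ℤ) := Nat.isCoprime_iff_coprime.mpr hQ
      have h2 : (p : ℤ) ∣ (t : ℤ) - t₀ := hc.dvd_of_dvd_mul_left h1
      have h3 : (t₀ : ℤ) ≡ t [ZMOD p] := Int.modEq_iff_dvd.mpr h2
      exact ((Int.natCast_modEq_iff).mp h3).symm
    have hcount : ((range M).filter (fun t : ℕ => t ≡ t₀ [MOD p])).card ≤ M / p + 1 := by
      rw [← Nat.count_eq_card_filter_range, Nat.count_modEq_card _ hp]
      split_ifs <;> omega
    have h4 : A.card ≤ M / p + 1 := (card_le_card hsub).trans hcount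
    have h5 : ((M / p : ℕ) : ℝ) ≤ (M : ℝ) / p := Nat.cast_div_le
    have h6 : (A.card : ℝ) ≤ ((M / p : ℕ) : ℝ) + 1 := by exact_mod_cast h4
    linarith
  · rw [not_nonempty_iff_eq_empty] at hne
    rw [hne, card_empty, Nat.cast_zero]
    positivity

/-- Run bound. Let `n, Q ≥ 1` and let `P` be the primes of `n` not dividing `Q`. If `S = ∑_{p ∈ P} 1/p < 1`,
then a run of `L` consecutive integers, none coprime to `n`, has `L < Q (|P| / (1 - S) + 1)`. -/
theorem result (n Q : ℕ) (hn : 0 < n) (hQ : 0 < Q) (a : ℤ) (L : ℕ)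
    (hS : ∑ p ∈ n.primeFactors.filter (fun p => ¬ p ∣ Q), (1 / (p : ℝ)) < 1)
    (hrun : ∀ x ∈ Finset.Ico a (a + L), ¬ IsCoprime x (n : ℤ)) :
    (L : ℝ) < Q * (((n.primeFactors.filter (fun p => ¬ p ∣ Q)).card : ℝ) /
      (1 - ∑ p ∈ n.primeFactors.filter (fun p => ¬ p ∣ Q), (1 / (p : ℝ))) + 1) := by
  classical
  set P := n.primeFactors.filter (fun p => ¬ p ∣ Q) with hP
  set S := ∑ p ∈ P, (1 / (p : ℝ)) with hSdef
  have hpos : 0 < 1 - S := by linarith
  -- the start `b` of the progression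
  obtain ⟨b, hb1, hb2, hb3⟩ : ∃ b : ℤ, a ≤ b ∧ b ≤ a + Q - 1 ∧ (Q : ℤ) ∣ b - 1 := by
    have hQ' : (0 : ℤ) < Q := by exact_mod_cast hQ
    refine ⟨a + (1 - a) % Q, ?_, ?_, ?_⟩
    · have := Int.emod_nonneg (1 - a) hQ'.ne'
      linarith
    · have := Int.emod_lt_of_pos (1 - a) hQ'
      linarith
    · have e : a + (1 - a) % (Q : ℤ) - 1 = (1 - a) % (Q : ℤ) - (1 - a) := by ring
      rw [e, dvd_sub_comm]
      exact Int.dvd_self_sub_emod
  set M := L / Q with hM
  have hLM : L < Q * (M + 1) := by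
    have := Nat.lt_mul_div_succ L hQ
    simpa [hM] using this
  -- every term of the progression is a multiple of a prime of `P`
  have hcover : ∀ t ∈ range M, ∃ p ∈ P, (p : ℤ) ∣ b + Q * t := by
    intro t ht
    have htM : t + 1 ≤ M := by simpa using ht
    have hmul : Q * (t + 1) ≤ L := by
      calc Q * (t + 1) ≤ Q * M := Nat.mul_le_mul_left _ htM
        _ ≤ L := Nat.mul_div_le L Q
    have hmul' : (Q : ℤ) * (t + 1) ≤ L := by exact_mod_cast hmul
    have hmem : b + Q * t ∈ Finset.Ico a (a + L) := by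
      rw [Finset.mem_Ico]
      have hQt : (0 : ℤ) ≤ (Q : ℤ) * t := by positivity
      constructor
      · linarith
      · nlinarith
    have hnc := hrun _ hmem
    -- a prime common to `n` and the term
    have hnat : ¬ Nat.Coprime (b + Q * t).natAbs n := by
      intro h
      apply hnc
      rw [Int.isCoprime_iff_gcd_eq_one]
      simpa [Int.gcd, Nat.Coprime] using h
    obtain ⟨p, hpp, hpx, hpn⟩ := Nat.Prime.not_coprime_iff_dvd.mp hnat
    have hpxz : (p : ℤ) ∣ b + Q * t := Int.natCast_dvd.mpr hpx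
    have hn0 : n ≠ 0 := hn.ne'
    refine ⟨p, ?_, hpxz⟩
    rw [hP, mem_filter, Nat.mem_primeFactors]
    refine ⟨⟨hpp, hpn, hn0⟩, ?_⟩
    intro hpQ
    -- then `p ∣ 1`
    have h1 : (p : ℤ) ∣ b - 1 := (Int.natCast_dvd_natCast.mpr hpQ).trans hb3
    have h2 : (p : ℤ) ∣ (Q : ℤ) * t := Dvd.dvd.mul_right (Int.natCast_dvd_natCast.mpr hpQ) _
    have h3 : (p : ℤ) ∣ (b + Q * t) - (b - 1) - Q * t := dvd_sub (dvd_sub hpxz h1) h2
    have e : (b + (Q : ℤ) * t) - (b - 1) - Q * t = 1 := by ring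
    rw [e] at h3
    have h4 : p ∣ 1 := by exact_mod_cast h3
    exact hpp.one_lt.ne' (Nat.dvd_one.mp h4)
  -- the union bound
  have hcard : (M : ℝ) ≤ ∑ p ∈ P, ((M : ℝ) / p + 1) := by
    have hsub : range M ⊆ P.biUnion (fun p => (range M).filter (fun t : ℕ => (p : ℤ) ∣ b + Q * t)) := by
      intro t ht
      obtain ⟨p, hp, hd⟩ := hcover t ht
      exact mem_biUnion.mpr ⟨p, hp, mem_filter.mpr ⟨ht, hd⟩⟩
    have h1 : M ≤ ∑ p ∈ P, ((range M).filter (fun t : ℕ => (p : ℤ) ∣ b + Q * t)).card := by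
      have := (card_le_card hsub).trans card_biUnion_le
      simpa using this
    have h2 : (M : ℝ) ≤ ∑ p ∈ P, (((range M).filter (fun t : ℕ => (p : ℤ) ∣ b + Q * t)).card : ℝ) := by
      exact_mod_cast h1
    refine h2.trans (sum_le_sum fun p hp => ?_)
    have hpmem := (mem_filter.mp hp)
    have hpp : p.Prime := Nat.prime_of_mem_primeFactors hpmem.1
    have hcop : Nat.Coprime p Q := (Nat.Prime.coprime_iff_not_dvd hpp).mpr hpmem.2
    exact count_multiples p Q hpp.pos hcop b M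
  have hsum : ∑ p ∈ P, ((M : ℝ) / p + 1) = M * S + P.card := by
    rw [sum_add_distrib, hSdef, mul_sum]
    simp [div_eq_mul_inv]
  rw [hsum] at hcard
  have hM' : (M : ℝ) ≤ (P.card : ℝ) / (1 - S) := by
    rw [le_div_iff₀ hpos]
    nlinarith
  have hQr : (0 : ℝ) < Q := by exact_mod_cast hQ
  have hLr : (L : ℝ) < Q * ((M : ℝ) + 1) := by exact_mod_cast hLM
  calc (L : ℝ) < Q * ((M : ℝ) + 1) := hLr
    _ ≤ Q * ((P.card : ℝ) / (1 - S) + 1) := by
        apply mul_le_mul_of_nonneg_left _ hQr.le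
        linarith

end Vale.Agent.Results.P013.A_reciprocal
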