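import Mathlib

/-!
A third-level Bonferroni inequality for runs of integers covered by primes: the primes are split into a small set `Q`,
sieved to level three, and a set `R`, handled by the union bound.
-/

namespace Vale.Agent.Results.P013.B_bonferroni

open Finset

/-- The product of a finite set of naturals. -/
def pr (D : Finset ℕ) : ℕ := ∏ p ∈ D, p

/-- The sum over the `j`-element subsets `D` of `Q` of `1 / ∏ D`. -/
noncomputable def recip (Q : Finset ℕ) (j : ℕ) : ℝ :=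
  ∑ D ∈ Q.powersetCard j, ((pr D : ℕ) : ℝ)⁻¹

theorem recip_zero (Q : Finset ℕ) : recip Q 0 = 1 := by
  simp [recip, pr]

theorem cnt_bound (a : ℤ) (L d : ℕ) (hd : 0 < d) :
    |((((Ico a (a + L)).filter (fun x => (d : ℤ) ∣ x)).card : ℕ) : ℝ) - (L : ℝ) / d| ≤ 1 := by
  have hr : (0 : ℤ) < d := by exact_mod_cast hd
  have h := Int.Ico_filter_dvd_card a (a + L) hr
  set c := ((Ico a (a + L)).filter (fun x => (d : ℤ) ∣ x)).card with hc
  have hdq : (d : ℚ) ≠ 0 := by
    have : (0 : ℚ) < d := by exact_mod_cast hd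
    exact this.ne'
  set y : ℚ := ((a + L : ℤ) : ℚ) / ((d : ℤ) : ℚ) with hy
  set z : ℚ := (a : ℚ) / ((d : ℤ) : ℚ) with hz
  have hyz : y - z = (L : ℚ) / d := by
    rw [hy, hz]
    push_cast
    field_simp
    ring
  have h1 := Int.le_ceil y
  have h2 := Int.ceil_lt_add_one y
  have h3 := Int.le_ceil z
  have h4 := Int.ceil_lt_add_one z
  have hnn : (0 : ℚ) ≤ (L : ℚ) / d := by positivity
  have hc1 : ⌈y⌉ - ⌈z⌉ ≤ (c : ℤ) := by
    rw [h]
    exact le_max_left _ _
  have hc1' : ((⌈y⌉ : ℤ) : ℚ) - ((⌈z⌉ : ℤ) : ℚ) ≤ ((c : ℤ) : ℚ) := by exact_mod_cast hc1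
  have hc2 : (c : ℤ) = ⌈y⌉ - ⌈z⌉ ∨ (c : ℤ) = 0 := by
    rw [h]
    rcases max_choice (⌈y⌉ - ⌈z⌉) 0 with h' | h' <;> simp [h']
  have hup : ((c : ℤ) : ℚ) ≤ (L : ℚ) / d + 1 := by
    rcases hc2 with h' | h'
    · have : ((c : ℤ) : ℚ) = ((⌈y⌉ : ℤ) : ℚ) - ((⌈z⌉ : ℤ) : ℚ) := by exact_mod_cast h'
      rw [this]
      linarith
    · have : ((c : ℤ) : ℚ) = 0 := by exact_mod_cast h'
      rw [this]
      linarith
  have hlo : (L : ℚ) / d - 1 ≤ ((c : ℤ) : ℚ) := by linarith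
  have hup' := (Rat.cast_le (K := ℝ)).mpr hup
  have hlo' := (Rat.cast_le (K := ℝ)).mpr hlo
  push_cast at hup' hlo'
  rw [abs_le]
  constructor <;> linarith

/-- Primes of `Q` dividing `x`. -/
def primesOf (Q : Finset ℕ) (x : ℤ) : Finset ℕ := Q.filter (fun p => p ∣ x.natAbs)

theorem choose_eq (Q : Finset ℕ) (x : ℤ) (j : ℕ) :
    ((primesOf Q x).card).choose j =
      ((Q.powersetCard j).filter (fun D => ∀ p ∈ D, p ∣ x.natAbs)).card := by
  rw [← card_powersetCard]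
  congr 1
  ext D
  simp only [mem_powersetCard, mem_filter, primesOf, subset_iff]
  constructor
  · rintro ⟨h1, h2⟩
    exact ⟨⟨fun p hp => (h1 hp).1, h2⟩, fun p hp => (h1 hp).2⟩
  · rintro ⟨⟨h1, h2⟩, h3⟩
    exact ⟨fun p hp => ⟨h1 hp, h3 p hp⟩, h2⟩

theorem sum_choose (B : Finset ℤ) (Q : Finset ℕ) (j : ℕ) :
    ∑ x ∈ B, ((primesOf Q x).card).choose j =
      ∑ D ∈ Q.powersetCard j, (B.filter (fun x => ∀ p ∈ D, p ∣ x.natAbs)).card := by
  simp_rw [choose_eq]
  exact Finset.sum_card_bipartiteAbove_eq_sum_card_bipartiteBelow (fun x D => ∀ p ∈ D, p ∣ Int.natAbs x)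

theorem dvd_iff (D : Finset ℕ) (hD : ∀ p ∈ D, p.Prime) (x : ℤ) :
    (∀ p ∈ D, p ∣ x.natAbs) ↔ ((pr D : ℕ) : ℤ) ∣ x := by
  rw [Int.natCast_dvd]
  constructor
  · intro h
    exact Finset.prod_primes_dvd _ (fun p hp => (hD p hp).prime) h
  · intro h p hp
    exact (Finset.dvd_prod_of_mem (fun q => q) hp).trans h

theorem choose_sum_bound (P₀ Q : Finset ℕ) (hP : ∀ p ∈ P₀, p.Prime) (hQ : ∀ p ∈ Q, p.Prime)
    (hd : Disjoint P₀ Q) (a : ℤ) (L j : ℕ) :
    |(∑ x ∈ (Ico a (a + L)).filter (fun x => ∀ p ∈ P₀, p ∣ x.natAbs),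
        (((primesOf Q x).card).choose j : ℝ)) - (L : ℝ) / pr P₀ * recip Q j| ≤
      (Q.card.choose j : ℝ) := by
  set B := (Ico a (a + L)).filter (fun x => ∀ p ∈ P₀, p ∣ x.natAbs) with hB
  have h1 : (∑ x ∈ B, (((primesOf Q x).card).choose j : ℝ)) =
      ∑ D ∈ Q.powersetCard j, ((B.filter (fun x => ∀ p ∈ D, p ∣ x.natAbs)).card : ℝ) := by
    exact_mod_cast sum_choose B Q j
  have h2 : (L : ℝ) / pr P₀ * recip Q j =
      ∑ D ∈ Q.powersetCard j, (L : ℝ) / ((pr P₀ * pr D : ℕ) : ℝ) := by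
    rw [recip, Finset.mul_sum]
    refine Finset.sum_congr rfl fun D _ => ?_
    push_cast
    rw [div_eq_mul_inv, div_eq_mul_inv, mul_inv]
    ring
  rw [h1, h2, ← Finset.sum_sub_distrib]
  refine (Finset.abs_sum_le_sum_abs _ _).trans ?_
  have h3 : (Q.card.choose j : ℝ) = ∑ D ∈ Q.powersetCard j, (1 : ℝ) := by
    simp [card_powersetCard]
  rw [h3]
  refine Finset.sum_le_sum fun D hD => ?_
  have hDQ := (mem_powersetCard.mp hD).1
  have hU : ∀ p ∈ P₀ ∪ D, p.Prime := by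
    intro p hp
    rcases mem_union.mp hp with h | h
    · exact hP p h
    · exact hQ p (hDQ h)
  have hdis : Disjoint P₀ D := disjoint_of_subset_right hDQ hd
  have hpr : pr (P₀ ∪ D) = pr P₀ * pr D := Finset.prod_union hdis
  have hset : B.filter (fun x => ∀ p ∈ D, p ∣ x.natAbs) =
      (Ico a (a + L)).filter (fun x => ((pr P₀ * pr D : ℕ) : ℤ) ∣ x) := by
    ext x
    simp only [hB, mem_filter]
    rw [← hpr, ← dvd_iff (P₀ ∪ D) hU x]
    constructor
    · rintro ⟨⟨hx, h1⟩, h2⟩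
      refine ⟨hx, fun p hp => ?_⟩
      rcases mem_union.mp hp with h | h
      · exact h1 p h
      · exact h2 p h
    · rintro ⟨hx, h⟩
      exact ⟨⟨hx, fun p hp => h p (mem_union_left _ hp)⟩, fun p hp => h p (mem_union_right _ hp)⟩
  rw [hset]
  refine cnt_bound a L _ ?_
  rw [← hpr]
  exact Finset.prod_pos fun p hp => (hU p hp).pos

theorem point_bounds (n : ℕ) :
    ((n.choose 0 : ℝ) - n.choose 1 + n.choose 2 - n.choose 3 ≤ if n = 0 then (1 : ℝ) else 0) ∧
    ((if n = 0 then (1 : ℝ) else 0) ≤ (n.choose 0 : ℝ) - n.choose 1 + n.choose 2) := by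
  rcases n with _ | b
  · simp
  · have h2 : ((b + 1).choose 2 : ℝ) = b + b.choose 2 := by
      have : (b + 1).choose 2 = b.choose 1 + b.choose 2 := Nat.choose_succ_succ b 1
      rw [this]
      push_cast
      simp
    have h3 : ((b + 1).choose 3 : ℝ) = b.choose 2 + b.choose 3 := by
      have : (b + 1).choose 3 = b.choose 2 + b.choose 3 := Nat.choose_succ_succ b 2
      rw [this]
      push_cast
      rfl
    have h1 : ((b + 1).choose 1 : ℝ) = b + 1 := by simp
    have h0 : ((b + 1).choose 0 : ℝ) = 1 := by simp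
    have hnn2 : (0 : ℝ) ≤ b.choose 2 := by positivity
    have hnn3 : (0 : ℝ) ≤ b.choose 3 := by positivity
    rw [if_neg (Nat.succ_ne_zero b), h0, h1, h2, h3]
    constructor <;> linarith

/-- Let `Q, R` be disjoint finite sets of primes with `m = |Q|`, `k = |R|`, `S = ∑_{p ∈ R} 1/p`, and let `e_j` be the
`j`-th elementary symmetric sum of the `1/p`, `p ∈ Q`. If each of `L` consecutive integers is divisible by a prime of
`Q ∪ R`, then `L * ((1 - e₁ + e₂ - e₃) - S (1 - e₁ + e₂)) ≤ (1 + m + C(m,2) + C(m,3)) + k (1 + m + C(m,2))`. -/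
theorem result (Q R : Finset ℕ) (hQ : ∀ p ∈ Q, p.Prime) (hR : ∀ p ∈ R, p.Prime) (hd : Disjoint Q R)
    (a : ℤ) (L : ℕ) (hrun : ∀ x ∈ Ico a (a + L), ∃ p ∈ Q ∪ R, (p : ℤ) ∣ x) :
    (L : ℝ) * ((1 - recip Q 1 + recip Q 2 - recip Q 3) -
        (∑ p ∈ R, (1 / (p : ℝ))) * (1 - recip Q 1 + recip Q 2)) ≤
      (1 + (Q.card : ℝ) + (Q.card.choose 2 : ℝ) + (Q.card.choose 3 : ℝ)) +
        (R.card : ℝ) * (1 + (Q.card : ℝ) + (Q.card.choose 2 : ℝ)) := by
  set I := Ico a (a + L) with hI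
  set e₁ := recip Q 1 with he₁
  set e₂ := recip Q 2 with he₂
  set e₃ := recip Q 3 with he₃
  set m2 : ℝ := (Q.card.choose 2 : ℝ) with hm2
  set m3 : ℝ := (Q.card.choose 3 : ℝ) with hm3
  set W := 1 - e₁ + e₂ with hW
  set A : ℤ → ℕ := fun x => (primesOf Q x).card with hA
  -- the sums over the whole interval
  have hF : ∀ j, |(∑ x ∈ I, (((A x).choose j : ℕ) : ℝ)) - (L : ℝ) * recip Q j| ≤ (Q.card.choose j : ℝ) := by
    intro j
    have := choose_sum_bound ∅ Q (by simp) hQ (by simp) a L j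
    simpa [pr] using this
  -- the sums over multiples of a prime of `R`
  have hFp : ∀ p ∈ R, ∀ j,
      |(∑ x ∈ I.filter (fun x => p ∣ x.natAbs), (((A x).choose j : ℕ) : ℝ)) - (L : ℝ) / p * recip Q j| ≤
        (Q.card.choose j : ℝ) := by
    intro p hp j
    have hdis : Disjoint ({p} : Finset ℕ) Q :=
      disjoint_singleton_left.mpr (fun hpQ => (disjoint_right.mp hd hp) hpQ)
    have := choose_sum_bound {p} Q (by simpa using hR p hp) hQ hdis a L j
    simpa [pr] using this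
  -- the pointwise inequalities
  set g : ℕ → ℝ := fun n => (n.choose 0 : ℝ) - n.choose 1 + n.choose 2 with hg
  have hcover : ∀ x ∈ I, (if A x = 0 then (1 : ℝ) else 0) ≤
      ∑ p ∈ R, (if p ∣ x.natAbs then g (A x) else 0) := by
    intro x hx
    have hgnn : 0 ≤ g (A x) := by
      have h1 := (point_bounds (A x)).2
      have h2 : (0 : ℝ) ≤ if A x = 0 then (1 : ℝ) else 0 := by split_ifs <;> norm_num
      exact h2.trans h1
    have hnn : ∀ q ∈ R, (0 : ℝ) ≤ if q ∣ x.natAbs then g (A x) else 0 := by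
      intro q _
      split_ifs
      · exact hgnn
      · exact le_rfl
    by_cases h0 : A x = 0
    · obtain ⟨p, hp, hdvd⟩ := hrun x hx
      have hdvd' : p ∣ x.natAbs := Int.natCast_dvd.mp hdvd
      have hpR : p ∈ R := by
        rcases mem_union.mp hp with h | h
        · exfalso
          have hmem : p ∈ primesOf Q x := mem_filter.mpr ⟨h, hdvd'⟩
          have hempty : primesOf Q x = ∅ := card_eq_zero.mp h0
          rw [hempty] at hmem
          simp at hmem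
        · exact h
      calc (if A x = 0 then (1 : ℝ) else 0) ≤ g (A x) := (point_bounds (A x)).2
        _ = (if p ∣ x.natAbs then g (A x) else 0) := (if_pos hdvd').symm
        _ ≤ _ := Finset.single_le_sum (f := fun q => if q ∣ x.natAbs then g (A x) else 0) hnn hpR
    · rw [if_neg h0]
      exact Finset.sum_nonneg hnn
  have hsum : ∑ x ∈ I, (g (A x) - ((A x).choose 3 : ℝ)) ≤
      ∑ p ∈ R, ∑ x ∈ I.filter (fun x => p ∣ x.natAbs), g (A x) := by
    calc ∑ x ∈ I, (g (A x) - ((A x).choose 3 : ℝ)) ≤ ∑ x ∈ I, (if A x = 0 then (1 : ℝ) else 0) :=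
          Finset.sum_le_sum fun x _ => (point_bounds (A x)).1
      _ ≤ ∑ x ∈ I, ∑ p ∈ R, (if p ∣ x.natAbs then g (A x) else 0) := Finset.sum_le_sum hcover
      _ = ∑ p ∈ R, ∑ x ∈ I, (if p ∣ x.natAbs then g (A x) else 0) := Finset.sum_comm
      _ = _ := Finset.sum_congr rfl fun p _ => (Finset.sum_filter _ _).symm
  -- lower bound of the left side
  have hleft : (L : ℝ) * (1 - e₁ + e₂ - e₃) - (1 + (Q.card : ℝ) + m2 + m3) ≤
      ∑ x ∈ I, (g (A x) - ((A x).choose 3 : ℝ)) := by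
    have h0 := abs_le.mp (hF 0)
    have h1 := abs_le.mp (hF 1)
    have h2 := abs_le.mp (hF 2)
    have h3 := abs_le.mp (hF 3)
    rw [recip_zero] at h0
    simp only [hg, Finset.sum_sub_distrib, Finset.sum_add_distrib]
    simp only [Nat.choose_one_right, Nat.choose_zero_right, Nat.cast_one] at h0 h1 ⊢
    have e : (L : ℝ) * (1 - e₁ + e₂ - e₃) = L * 1 - L * e₁ + L * e₂ - L * e₃ := by ring
    rw [e]
    linarith [h0.1, h1.2, h2.1, h3.2]
  -- upper bound of each term on the right side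
  have hright : ∀ p ∈ R, ∑ x ∈ I.filter (fun x => p ∣ x.natAbs), g (A x) ≤
      (L : ℝ) / p * W + (1 + (Q.card : ℝ) + m2) := by
    intro p hp
    have h0 := abs_le.mp (hFp p hp 0)
    have h1 := abs_le.mp (hFp p hp 1)
    have h2 := abs_le.mp (hFp p hp 2)
    rw [recip_zero] at h0
    simp only [hg, Finset.sum_sub_distrib, Finset.sum_add_distrib]
    simp only [Nat.choose_one_right, Nat.choose_zero_right, Nat.cast_one] at h0 h1 ⊢
    have e : (L : ℝ) / p * W = L / p * 1 - L / p * e₁ + L / p * e₂ := by rw [hW]; ring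
    rw [e]
    linarith [h0.2, h1.1, h2.2]
  have hRsum : ∑ p ∈ R, ((L : ℝ) / p * W + (1 + (Q.card : ℝ) + m2)) =
      (L : ℝ) * (∑ p ∈ R, (1 / (p : ℝ))) * W + (R.card : ℝ) * (1 + (Q.card : ℝ) + m2) := by
    rw [Finset.sum_add_distrib, Finset.sum_const, nsmul_eq_mul, Finset.mul_sum, Finset.sum_mul]
    congr 1
    exact Finset.sum_congr rfl fun p _ => by ring
  have hfinal := hleft.trans (hsum.trans ((Finset.sum_le_sum hright).trans_eq hRsum))
  have e : (L : ℝ) * ((1 - e₁ + e₂ - e₃) - (∑ p ∈ R, (1 / (p : ℝ))) * W) =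
      (L : ℝ) * (1 - e₁ + e₂ - e₃) - (L : ℝ) * (∑ p ∈ R, (1 / (p : ℝ))) * W := by ring
  rw [e]
  linarith

end Vale.Agent.Results.P013.B_bonferroni
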